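import Vale.Agent.P272.HY.Blocks
import Vale.Agent.P272.K.Asm.Final

/-!
# P272, block COR: from the volume comparison (Theorem 1) to `c₁(K_X)^n > 0`
-/

open scoped Manifold ContDiff ComplexOrder Topology
open Complex Set Filter MeasureTheory

noncomputable section

namespace Vale.Agent.P272.COR

open Vale.Agent.P272.K
open Vale.Agent.P272.K.INT

section defs

variable {n : ℕ} {X : Type*} [TopologicalSpace X] [ChartedSpace (Cm n) X]

/-- **Theorem 1** (volume comparison): there is `c > 0` with `g^n ≥ c w^n` for all Kähler metrics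
`g` with `Ric(g) ≥ -g`. -/
def VolLower (w : Chart n X → Cm n → Matrix (Fin n) (Fin n) ℂ) : Prop :=
  ∃ c : ℝ, 0 < c ∧ ∀ g : Chart n X → Cm n → Matrix (Fin n) (Fin n) ℂ, IsKahler g → HY.RicGe g →
    ∀ e x, At e x → c * (w e (e x)).det.re ≤ (g e (e x)).det.re

end defs

variable {n : ℕ} {X : Type} [TopologicalSpace X] [ChartedSpace (Cm n) X]
  [IsManifold 𝓘(ℂ, Cm n) ω X] [T2Space X] [CompactSpace X]

omit [T2Space X] [CompactSpace X] in
lemma isDensity_can {w : Chart n X → Cm n → Matrix (Fin n) (Fin n) ℂ} (hw : IsKahler w)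
    {ψ : Chart n X → Cm n → ℝ} (hψ : IsCanonicalMetric ψ) (t : ℝ) :
    IsDensity (fun e z => (cHess (ψ e) z + (t : ℂ) • w e z).det.re) :=
  ((isClosedForm_canonical hψ).add ((IsKahler.isClosedForm hw).smul (t : ℂ))).isDensity

/-- the volume of `w` is positive -/
lemma intX_vol_pos [Nonempty X] {w : Chart n X → Cm n → Matrix (Fin n) (Fin n) ℂ}
    (hw : IsKahler w) : 0 < intX fun e z => (w e z).det.re :=
  intX_pos (IsKahler.isClosedForm hw).isDensity fun e x hx => (posDef_det_re (hw.posDef e x hx)).1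

/-- lower bound of `(K_X + t w)^n`, `t > 0` -/
theorem PP_ge {w : Chart n X → Cm n → Matrix (Fin n) (Fin n) ℂ} (hw : IsKahler w) {c : ℝ}
    (hc : ∀ g : Chart n X → Cm n → Matrix (Fin n) (Fin n) ℂ, IsKahler g → HY.RicGe g →
      ∀ e x, At e x → c * (w e (e x)).det.re ≤ (g e (e x)).det.re)
    {a : ℝ} (hke : TwistedKE w a) {φ : Chart n X → Cm n → ℝ} (hφ : IsCanonicalMetric φ) {t : ℝ}
    (ht : a < t) : c * (intX fun e z => (w e z).det.re) ≤ PP φ w t := by
  obtain ⟨ψ, hψ, hpos, hric⟩ := hke (t - a) (sub_pos.2 ht)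
  have hta : a + (t - a) = t := by ring
  simp only [hta] at hpos hric
  rw [PP_eq hφ hψ (IsKahler.isClosedForm hw), ← intX_const_mul]
  exact intX_mono ((IsKahler.isClosedForm hw).isDensity.const_mul c) (isDensity_can hw hψ t)
    (hc _ (isKahler_twist hψ hw t hpos) hric)

/-- the volume comparison gives `(K_X + a[w])^n ≥ c [w]^n` if `K_X + a[w]` is nef -/
theorem vol_ge {w : Chart n X → Cm n → Matrix (Fin n) (Fin n) ℂ} (hw : IsKahler w) {c : ℝ}
    (hc : ∀ g : Chart n X → Cm n → Matrix (Fin n) (Fin n) ℂ, IsKahler g → HY.RicGe g →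
      ∀ e x, At e x → c * (w e (e x)).det.re ≤ (g e (e x)).det.re)
    {a : ℝ} (ha : 0 ≤ a) (hnef : NefCanonical w a) {φ : Chart n X → Cm n → ℝ}
    (hφ : IsCanonicalMetric φ) : c * (intX fun e z => (w e z).det.re) ≤ PP φ w a := by
  have hke := twistedKE_of_nef (aubinYau n X) hw ha hnef
  have hcont : Continuous (PP φ w) := continuous_iff_continuousAt.2 fun t =>
    (PP_hasDerivAt hφ (IsKahler.isClosedForm hw) t).continuousAt
  have h1 : Tendsto (PP φ w) (𝓝[>] a) (𝓝 (PP φ w a)) :=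
    (hcont.tendsto a).mono_left nhdsWithin_le_nhds
  refine ge_of_tendsto h1 ?_
  filter_upwards [self_mem_nhdsWithin] with t ht
  exact PP_ge hw hc hke hφ ht

/-- `(K_X + a[w])^n > 0` -/
theorem top_pos [Nonempty X] {w : Chart n X → Cm n → Matrix (Fin n) (Fin n) ℂ} (hw : IsKahler w)
    (hv : VolLower w) {a : ℝ} (ha : 0 ≤ a) (hnef : NefCanonical w a) {φ : Chart n X → Cm n → ℝ}
    (hφ : IsCanonicalMetric φ) :
    ∃ I : ℝ, 0 < I ∧ IsIntegral (fun e z => (cHess (φ e) z + (a : ℂ) • w e z).det.re) I := by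
  obtain ⟨c, hc, h⟩ := hv
  exact ⟨PP φ w a, (mul_pos hc (intX_vol_pos hw)).trans_le (vol_ge hw h ha hnef hφ),
    (isDensity_can hw hφ a).isIntegral⟩

/-- `c₁(K_X)^n > 0` -/
theorem top_pos_zero [Nonempty X] {w : Chart n X → Cm n → Matrix (Fin n) (Fin n) ℂ}
    (hw : IsKahler w) (hv : VolLower w) (hnef : NefCanonical w 0) {φ : Chart n X → Cm n → ℝ}
    (hφ : IsCanonicalMetric φ) :
    ∃ I : ℝ, 0 < I ∧ IsIntegral (fun e z => (cHess (φ e) z).det.re) I := by
  obtain ⟨I, hI, h⟩ := top_pos hw hv le_rfl hnef hφ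
  refine ⟨I, hI, ?_⟩
  simpa using h

/-- a canonical metric with zero curvature makes `K_X` nef -/
lemma nef_of_flat {w : Chart n X → Cm n → Matrix (Fin n) (Fin n) ℂ} (hw : IsKahler w)
    {φ : Chart n X → Cm n → ℝ} (hφ : IsCanonicalMetric φ)
    (h0 : ∀ e x, At e x → cHess (φ e) (e x) = 0) : NefCanonical w 0 := by
  intro ε hε
  refine ⟨φ, hφ, fun e x hx => ?_⟩
  rw [h0 e x hx, zero_add]
  exact posSemidef_ofReal_smul (hw.posDef e x hx).posSemidef (by linarith)

/-- the first Chern class is not zero -/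
theorem not_flat [Nonempty X] (hn : 1 ≤ n) {w : Chart n X → Cm n → Matrix (Fin n) (Fin n) ℂ}
    (hw : IsKahler w) (hv : VolLower w) :
    ¬ ∃ φ : Chart n X → Cm n → ℝ, IsCanonicalMetric φ ∧ ∀ e x, At e x → cHess (φ e) (e x) = 0 := by
  rintro ⟨φ, hφ, h0⟩
  obtain ⟨I, hI, hint⟩ := top_pos_zero hw hv (nef_of_flat hw hφ h0) hφ
  have h1 := intX_eq_of_isIntegral hint
  have h2 : (intX fun e z => (cHess (φ e) z).det.re) =
      intX (n := n) (X := X) fun _ _ => (0 : ℝ) := by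
    refine intX_congr fun e x hx => ?_
    have : Nonempty (Fin n) := ⟨⟨0, hn⟩⟩
    rw [h0 e x hx, Matrix.det_zero]
    rfl
  rw [h2, intX_zero] at h1
  exact hI.ne h1

omit [IsManifold 𝓘(ℂ, Cm n) ω X] [T2Space X] [CompactSpace X] in
/-- Theorem 1 for hyperbolic manifolds from the blocks `B2` and `B14` -/
theorem volLower_of (hn : 1 ≤ n) (h2 : HY.B2 n X) (h14 : HY.B14 n X) (hX : BrodyHyperbolic n X)
    {w : Chart n X → Cm n → Matrix (Fin n) (Fin n) ℂ} (hw : IsHermitian w) : VolLower w := by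
  obtain ⟨M, hM, hMf⟩ := h2 w hw hX
  refine ⟨((n : ℝ) / (Real.exp 1 * M)) ^ n, ?_, fun g hg hric e x hx =>
    h14 w hw M hM hMf g hg hric e x hx⟩
  have : (0 : ℝ) < n := by exact_mod_cast hn
  positivity

end Vale.Agent.P272.COR

namespace Vale.Agent.P272.HY

open Vale.Agent.P272.K

/-- the block `B15` from `B2` and `B14` -/
theorem b15_of
    (h2 : ∀ (n : ℕ) (X : Type) [TopologicalSpace X] [T2Space X] [CompactSpace X]
      [ChartedSpace (Cm n) X] [IsManifold 𝓘(ℂ, Cm n) ω X], B2 n X)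
    (h14 : ∀ (n : ℕ) (X : Type) [TopologicalSpace X] [T2Space X] [CompactSpace X]
      [ChartedSpace (Cm n) X] [IsManifold 𝓘(ℂ, Cm n) ω X], B14 n X) : B15 := by
  intro n hn X _ _ _ _ _ _ hX w hw hnef φ hφ
  exact COR.top_pos_zero hw (COR.volLower_of hn (h2 n X) (h14 n X) hX hw.toIsHermitian) hnef hφ

end Vale.Agent.P272.HY
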